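import Vale.Agent.N018Y.Range

open Polynomial Filter Asymptotics

open Vale.Agent.P018 in
/-- `k`-power-free values of irreducible polynomials of degree `d`, for all pairs
`(d, k) ≠ (19, 7)` with `k ≥ d / 4 + (log d) ^ 2 / 16 + (log d) / 3 + 0.651`. -/
theorem Vale.Agent.Results.P018.A0Formula.result (f : ℤ[X]) (d k : ℕ)
    (hirr : Irreducible (f.map (Int.castRingHom ℚ))) (hd : f.natDegree = d) (hk : 2 ≤ k)
    (hne : (d, k) ≠ (19, 7))
    (hrange : (d : ℝ) / 4 + Real.log d ^ 2 / 16 + Real.log d / 3 + 0.651 ≤ k)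
    (hloc : ∀ p : ℕ, p.Prime → rho f (p ^ k) < p ^ k) :
    Multipliable (fun p : Nat.Primes => 1 - (rho f ((p : ℕ) ^ k) : ℝ) / ((p : ℕ) : ℝ) ^ k) ∧
    0 < density f k ∧
    (fun X : ℕ => (countPF f k X : ℝ) - density f k * X) =o[atTop] (fun X : ℕ => (X : ℝ)) ∧
    ∃ δ C : ℝ, 0 < δ ∧ ∀ X : ℕ, 1 ≤ X →
      |(countPF f k X : ℝ) - density f k * X| ≤ C * (X : ℝ) ^ (1 - δ) :=
  Vale.Agent.N018Y.predicted_of_irrV f k hk hirr hloc (Or.inr (hd ▸ ⟨hne, hrange⟩))
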